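import Vale.Agent.P262.Main

/-!
The Euclidean Steinitz constant is of order `√d`.
-/

namespace Vale.Agent.Results.P262.SteinitzSqrt

/-- There are absolute constants `C` and `c > 0` such that every finite zero-sum family in the
Euclidean unit ball of `ℝ^d` can be ordered with all partial sums of norm at most `C √d`, and for
every `d ≥ 1` some such family forces a partial sum of norm at least `c √d` in every order. -/
theorem result :
    (∃ C : ℝ, ∀ (d N : ℕ) (v : Fin N → EuclideanSpace ℝ (Fin d)),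
      (∀ i, ‖v i‖ ≤ 1) → ∑ i, v i = 0 →
      ∃ π : Equiv.Perm (Fin N), ∀ k ≤ N,
        ‖∑ i ∈ Finset.univ.filter (fun i : Fin N => (i : ℕ) < k), v (π i)‖
          ≤ C * Real.sqrt (d : ℝ)) ∧
    (∃ c : ℝ, 0 < c ∧ ∀ d : ℕ, 1 ≤ d →
      ∃ (N : ℕ) (v : Fin N → EuclideanSpace ℝ (Fin d)), (∀ i, ‖v i‖ ≤ 1) ∧ ∑ i, v i = 0 ∧
        ∀ π : Equiv.Perm (Fin N), ∃ k ≤ N,
          c * Real.sqrt (d : ℝ)
            ≤ ‖∑ i ∈ Finset.univ.filter (fun i : Fin N => (i : ℕ) < k), v (π i)‖) := by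
  refine ⟨⟨√Vale.Agent.P262.steinitzSq, Vale.Agent.P262.steinitz_upper⟩, 1 / 4, by norm_num, ?_⟩
  intro d hd
  obtain ⟨N, v, hv, hsum, h⟩ := Vale.Agent.P262.steinitz_lower d hd
  refine ⟨N, v, hv, hsum, fun π => ?_⟩
  obtain ⟨k, hk, hle⟩ := h π
  exact ⟨k, hk, by linarith⟩

end Vale.Agent.Results.P262.SteinitzSqrt
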